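import Vale.Agent.P155.T802.Own
import Vale.Agent.P155.F.Arc

/-!
# P155, BD block: the inner faces of a strand form a chain

For a loop `A`, `v ∈ A` and `m`, the surrounded faces at the vertices `v, suc v, …, suc^m v`
form a connected set of faces.
-/

namespace Vale.Agent.P155.H550

open Finset Relation Vale.Agent.P155 Vale.Agent.P155.T802 Vale.Agent.P155.SW

variable {V : Finset Pt} {ω : Conf}

theorem surr_of_ne_zero {A : Set Pt} {f : Pt} (h : ind (surr ω A f) ≠ 0) : surr ω A f := by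
  by_contra hc
  exact h (ind_false hc)

/-- one side of a vertical edge of a loop is surrounded -/
theorem vface (hω : ω ∈ DD V) {A : Set Pt} (hA : A ∈ Loops ω) {x y : ℤ} (h : (x, y) ∈ A)
    (h1 : ω.1 (x, y) = (x, y + 1) ∨ ω.2 (x, y) = (x, y + 1)) :
    surr ω A (x, y) ∨ surr ω A (x - 1, y) := by
  have hev := loop_even hω hA
  have hne := L.loop_ne hω hA h
  have e : eA ω A (x, y) = 1 := by
    unfold eA
    rcases h1 with h1 | h1
    · rw [ind_true ⟨Or.inl h, h1⟩, ind_false (fun hh => hne (h1.trans hh.2.symm)), add_zero]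
    · rw [ind_false (fun hh => hne (hh.2.trans h1.symm)), ind_true ⟨Or.inl h, h1⟩, zero_add]
  have e1 := surr_par hω hA (x, y)
  have e2 := surr_par hω hA (x - 1, y)
  rw [par_right hev x y, ← e2, e] at e1
  by_contra hc
  push Not at hc
  rw [ind_false hc.1, ind_false hc.2, zero_add] at e1
  exact absurd e1 (by decide)

/-- one side of a horizontal edge of a loop is surrounded -/
theorem hface (hω : ω ∈ DD V) {A : Set Pt} (hA : A ∈ Loops ω) {x y : ℤ} (h : (x, y) ∈ A)
    (h1 : ω.1 (x, y) = (x + 1, y) ∨ ω.2 (x, y) = (x + 1, y)) :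
    surr ω A (x, y) ∨ surr ω A (x, y - 1) := by
  have hev := loop_even hω hA
  have hne := L.loop_ne hω hA h
  have e : eB ω A (x, y) = 1 := by
    unfold eB
    rcases h1 with h1 | h1
    · rw [ind_true ⟨Or.inl h, h1⟩, ind_false (fun hh => hne (h1.trans hh.2.symm)), add_zero]
    · rw [ind_false (fun hh => hne (hh.2.trans h1.symm)), ind_true ⟨Or.inl h, h1⟩, zero_add]
  have e1 := surr_par hω hA (x, y)
  have e2 := surr_par hω hA (x, y - 1)
  rw [par_up hev x y, ← e2, e] at e1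
  by_contra hc
  push Not at hc
  rw [ind_false hc.1, ind_false hc.2, zero_add] at e1
  exact absurd e1 (by decide)

/-- every edge of a loop has a surrounded side -/
theorem edge_face (hω : ω ∈ DD V) {A : Set Pt} (hA : A ∈ Loops ω) {w w' : Pt} (hw : w ∈ A)
    (h : w' = ω.1 w ∨ w' = ω.2 w) :
    ∃ f, f ∈ facesAt w ∧ f ∈ facesAt w' ∧ surr ω A f := by
  have hV := L.loop_subset hω hA hw
  have hadj : w' ∈ nbrs w := by
    rcases h with rfl | rfl
    · exact mem_nbrs.2 (L.adj1 hω hV)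
    · exact mem_nbrs.2 (L.adj2 hω hV)
  have hw' : w' ∈ A := by
    rcases h with rfl | rfl
    · exact L.loop_m1 hA hw
    · exact L.loop_m2 hA hw
  have hback : w = ω.1 w' ∨ w = ω.2 w' := by
    rcases h with rfl | rfl
    · left; rw [L.inv1 hω]
    · right; rw [L.inv2 hω]
  obtain ⟨x, y⟩ := w
  simp only [nbrs, mem_insert, mem_singleton] at hadj
  rcases hadj with rfl | rfl | rfl | rfl
  · rcases hface hω hA hw (h.imp Eq.symm Eq.symm) with h1 | h1
    · exact ⟨_, by simp [facesAt], by simp [facesAt], h1⟩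
    · exact ⟨_, by simp [facesAt], by simp [facesAt], h1⟩
  · rcases hface hω hA hw' (by rw [sub_add_cancel]; exact hback.imp Eq.symm Eq.symm) with h1 | h1
    · exact ⟨_, by simp [facesAt], by simp [facesAt], h1⟩
    · exact ⟨_, by simp [facesAt], by simp [facesAt], h1⟩
  · rcases vface hω hA hw (h.imp Eq.symm Eq.symm) with h1 | h1
    · exact ⟨_, by simp [facesAt], by simp [facesAt], h1⟩
    · exact ⟨_, by simp [facesAt], by simp [facesAt], h1⟩
  · rcases vface hω hA hw' (by rw [sub_add_cancel]; exact hback.imp Eq.symm Eq.symm) with h1 | h1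
    · exact ⟨_, by simp [facesAt], by simp [facesAt], h1⟩
    · exact ⟨_, by simp [facesAt], by simp [facesAt], h1⟩

/-- the surrounded faces at a vertex of the loop -/
def At (ω : Conf) (A : Set Pt) (w : Pt) : Set Pt := {f | f ∈ facesAt w ∧ surr ω A f}

/-- chains of adjacent faces of a set -/
def Ch (S : Set Pt) : Pt → Pt → Prop := ReflTransGen (fun a b => Adj a b ∧ a ∈ S ∧ b ∈ S)

theorem Ch.mono {S S' : Set Pt} (h : S ⊆ S') {a b : Pt} (hab : Ch S a b) : Ch S' a b := by
  unfold Ch at *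
  induction hab with
  | refl => exact ReflTransGen.refl
  | tail _ hs ih => exact ih.tail ⟨hs.1, h hs.2.1, h hs.2.2⟩

theorem Ch.symm {S : Set Pt} {a b : Pt} (hab : Ch S a b) : Ch S b a := by
  unfold Ch at *
  induction hab with
  | refl => exact ReflTransGen.refl
  | tail _ hs ih =>
    refine ReflTransGen.head ⟨?_, hs.2.2, hs.2.1⟩ ih
    have := hs.1
    unfold Adj at this ⊢
    rw [← this, abs_sub_comm, add_right_inj, abs_sub_comm]

theorem Ch.trans {S : Set Pt} {a b c : Pt} (h1 : Ch S a b) (h2 : Ch S b c) : Ch S a c :=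
  ReflTransGen.trans h1 h2

theorem Ch.single {S : Set Pt} {a b : Pt} (h : Adj a b) (ha : a ∈ S) (hb : b ∈ S) : Ch S a b :=
  ReflTransGen.single ⟨h, ha, hb⟩

theorem Ch.refl {S : Set Pt} (a : Pt) : Ch S a a := ReflTransGen.refl

/-- no vertex of a loop has four edges -/
theorem three_edges (hω : ω ∈ DD V) {A : Set Pt} (hA : A ∈ Loops ω) (x y : ℤ) :
    (ind (surr ω A (x - 1, y)) = ind (surr ω A (x, y))) ∨
    (ind (surr ω A (x - 1, y - 1)) = ind (surr ω A (x, y - 1))) ∨
    (ind (surr ω A (x, y - 1)) = ind (surr ω A (x, y))) := by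
  by_contra hc
  push Not at hc
  obtain ⟨h1, h2, h3⟩ := hc
  have hF := flat_surr hω hA
  have a1 : ¬ (ω.1 (x, y) = (x, y + 1) ↔ ω.2 (x, y) = (x, y + 1)) := fun h => h1 (hF.vert (x, y) h)
  have a2 : ¬ (ω.1 (x, y - 1) = (x, y - 1 + 1) ↔ ω.2 (x, y - 1) = (x, y - 1 + 1)) :=
    fun h => h2 (hF.vert (x, y - 1) h)
  have a3 : ¬ (ω.1 (x, y) = (x + 1, y) ↔ ω.2 (x, y) = (x + 1, y)) := fun h => h3 (hF.hor (x, y) h)
  rw [sub_add_cancel] at a2
  have i1 : ∀ p q, ω.1 p = q → ω.1 q = p := fun p q h => by rw [← h, L.inv1 hω]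
  have i2 : ∀ p q, ω.2 p = q → ω.2 q = p := fun p q h => by rw [← h, L.inv2 hω]
  have b1 : ω.1 (x, y) = (x, y + 1) ∨ ω.2 (x, y) = (x, y + 1) := by tauto
  have b2 : ω.1 (x, y) = (x, y - 1) ∨ ω.2 (x, y) = (x, y - 1) := by
    rcases (by tauto : ω.1 (x, y - 1) = (x, y) ∨ ω.2 (x, y - 1) = (x, y)) with h | h
    · exact Or.inl (i1 _ _ h)
    · exact Or.inr (i2 _ _ h)
  have b3 : ω.1 (x, y) = (x + 1, y) ∨ ω.2 (x, y) = (x + 1, y) := by tauto
  rcases b1 with b1 | b1 <;> rcases b2 with b2 | b2 <;> rcases b3 with b3 | b3 <;>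
    simp_all [Prod.mk.injEq] <;> omega

/-- two surrounded faces at a vertex are joined by surrounded faces at this vertex -/
theorem at_conn (hω : ω ∈ DD V) {A : Set Pt} (hA : A ∈ Loops ω) {w f f' : Pt}
    (hf : f ∈ At ω A w) (hf' : f' ∈ At ω A w) : Ch (At ω A w) f f' := by
  obtain ⟨x, y⟩ := w
  have adj1 : Adj (x, y) (x - 1, y) := by simp [Adj]
  have adj2 : Adj (x, y) (x, y - 1) := by simp [Adj]
  have adj3 : Adj (x - 1, y) (x - 1, y - 1) := by simp [Adj]
  have adj4 : Adj (x, y - 1) (x - 1, y - 1) := by simp [Adj]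
  set S := At ω A (x, y) with hS
  have m1 : surr ω A (x, y) → (x, y) ∈ S := fun h => ⟨by simp [facesAt], h⟩
  have m2 : surr ω A (x - 1, y) → (x - 1, y) ∈ S := fun h => ⟨by simp [facesAt], h⟩
  have m3 : surr ω A (x, y - 1) → (x, y - 1) ∈ S := fun h => ⟨by simp [facesAt], h⟩
  have m4 : surr ω A (x - 1, y - 1) → (x - 1, y - 1) ∈ S := fun h => ⟨by simp [facesAt], h⟩
  have h3 := three_edges hω hA x y
  -- opposite faces
  have o1 : surr ω A (x, y) → surr ω A (x - 1, y - 1) → Ch S (x, y) (x - 1, y - 1) := by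
    intro h h'
    rcases h3 with e | e | e
    · have h2 := (ind_iff e).2 h
      exact (Ch.single adj1 (m1 h) (m2 h2)).trans (Ch.single adj3 (m2 h2) (m4 h'))
    · have h2 := (ind_iff e).1 h'
      exact (Ch.single adj2 (m1 h) (m3 h2)).trans (Ch.single adj4 (m3 h2) (m4 h'))
    · have h2 := (ind_iff e).2 h
      exact (Ch.single adj2 (m1 h) (m3 h2)).trans (Ch.single adj4 (m3 h2) (m4 h'))
  have o2 : surr ω A (x - 1, y) → surr ω A (x, y - 1) → Ch S (x - 1, y) (x, y - 1) := by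
    intro h h'
    rcases h3 with e | e | e
    · have h2 := (ind_iff e).1 h
      exact (Ch.single adj1 (m1 h2) (m2 h)).symm.trans (Ch.single adj2 (m1 h2) (m3 h'))
    · have h2 := (ind_iff e).2 h'
      exact (Ch.single adj3 (m2 h) (m4 h2)).trans (Ch.single adj4 (m3 h') (m4 h2)).symm
    · have h2 := (ind_iff e).1 h'
      exact (Ch.single adj1 (m1 h2) (m2 h)).symm.trans (Ch.single adj2 (m1 h2) (m3 h'))
  have c12 : surr ω A (x, y) → surr ω A (x - 1, y) → Ch S (x, y) (x - 1, y) :=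
    fun h h' => Ch.single adj1 (m1 h) (m2 h')
  have c13 : surr ω A (x, y) → surr ω A (x, y - 1) → Ch S (x, y) (x, y - 1) :=
    fun h h' => Ch.single adj2 (m1 h) (m3 h')
  have c24 : surr ω A (x - 1, y) → surr ω A (x - 1, y - 1) → Ch S (x - 1, y) (x - 1, y - 1) :=
    fun h h' => Ch.single adj3 (m2 h) (m4 h')
  have c34 : surr ω A (x, y - 1) → surr ω A (x - 1, y - 1) → Ch S (x, y - 1) (x - 1, y - 1) :=
    fun h h' => Ch.single adj4 (m3 h) (m4 h')
  obtain ⟨hf, sf⟩ := hf
  obtain ⟨hf', sf'⟩ := hf'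
  simp only [facesAt, mem_insert, mem_singleton] at hf hf'
  rcases hf with rfl | rfl | rfl | rfl <;> rcases hf' with rfl | rfl | rfl | rfl
  · exact Ch.refl _
  · exact c12 sf sf'
  · exact c13 sf sf'
  · exact o1 sf sf'
  · exact (c12 sf' sf).symm
  · exact Ch.refl _
  · exact o2 sf sf'
  · exact c24 sf sf'
  · exact (c13 sf' sf).symm
  · exact (o2 sf' sf).symm
  · exact Ch.refl _
  · exact c34 sf sf'
  · exact (o1 sf' sf).symm
  · exact (c24 sf' sf).symm
  · exact (c34 sf' sf).symm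
  · exact Ch.refl _

/-- the inner faces of the strand `v, suc v, …, suc^m v` of the loop `A` -/
def Inner (ω : Conf) (A : Set Pt) (v : Pt) (m : ℕ) : Set Pt :=
  {f | surr ω A f ∧ ∃ j ≤ m, f ∈ facesAt ((suc ω)^[j] v)}

theorem at_sub {A : Set Pt} {v : Pt} {m j : ℕ} (hj : j ≤ m) :
    At ω A ((suc ω)^[j] v) ⊆ Inner ω A v m := fun _ h => ⟨h.2, j, hj, h.1⟩

theorem suc_mem {A : Set Pt} (hA : A ∈ Loops ω) {v : Pt} (hv : v ∈ A) (j : ℕ) :
    (suc ω)^[j] v ∈ A := by
  induction j with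
  | zero => exact hv
  | succ j ih =>
    rw [Function.iterate_succ_apply']
    unfold suc
    split_ifs
    · exact L.loop_m1 hA ih
    · exact L.loop_m2 hA ih

/-- every vertex of a loop has a surrounded face -/
theorem exists_at (hω : ω ∈ DD V) {A : Set Pt} (hA : A ∈ Loops ω) {w : Pt} (hw : w ∈ A) :
    ∃ f, f ∈ At ω A w := by
  obtain ⟨f, h1, _, h3⟩ := edge_face hω hA hw (Or.inl rfl)
  exact ⟨f, h1, h3⟩

/-- **the inner faces of a strand are connected** -/
theorem inner_conn (hω : ω ∈ DD V) {A : Set Pt} (hA : A ∈ Loops ω) {v : Pt} (hv : v ∈ A) (m : ℕ)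
    {f f' : Pt} (hf : f ∈ Inner ω A v m) (hf' : f' ∈ Inner ω A v m) :
    Ch (Inner ω A v m) f f' := by
  -- base face at `v`
  obtain ⟨f0, hf0⟩ := exists_at hω hA hv
  have key : ∀ j ≤ m, ∀ g ∈ At ω A ((suc ω)^[j] v), Ch (Inner ω A v m) f0 g := by
    intro j
    induction j with
    | zero =>
      intro hj g hg
      exact (at_conn hω hA hf0 hg).mono (at_sub hj)
    | succ j ih =>
      intro hj g hg
      have hj' : j ≤ m := by omega
      have hw := suc_mem hA hv j
      have hnx : (suc ω)^[j + 1] v = ω.1 ((suc ω)^[j] v) ∨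
          (suc ω)^[j + 1] v = ω.2 ((suc ω)^[j] v) := by
        rw [Function.iterate_succ_apply']
        generalize (suc ω)^[j] v = u
        unfold suc
        split_ifs
        · exact Or.inl rfl
        · exact Or.inr rfl
      obtain ⟨g', h1, h2, h3⟩ := edge_face hω hA hw hnx
      have s1 := ih hj' g' ⟨h1, h3⟩
      exact s1.trans ((at_conn hω hA ⟨h2, h3⟩ hg).mono (at_sub hj))
  obtain ⟨s, j, hj, hjf⟩ := hf
  obtain ⟨s', j', hj', hjf'⟩ := hf'
  exact (key j hj f ⟨hjf, s⟩).symm.trans (key j' hj' f' ⟨hjf', s'⟩)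

end Vale.Agent.P155.H550
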