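import Vale.Agent.P155.H550.Ray3
import Vale.Agent.P155.HT426.CovDD
import Vale.Agent.P155.H904.KProd

/-!
# P155, BD block: `COV` is a theorem
-/

namespace Vale.Agent.P155.H550

theorem raysφ : CovPath.RAYSφ := rays_phi

theorem kprod : CovPath.KPROD := H904.kprod

/-- **`COV dd`** -/
theorem cov : BD.COV BD.dd := CovPath.cov_dd kprod raysφ

/-- **`COV dd'`** -/
theorem cov' : BD.COV T211B.dd' := CovPath.cov_dd' kprod raysφ

end Vale.Agent.P155.H550
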