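import Vale.Agent.P155.T211B.Geo
import Vale.Agent.P155.T211B.Koebe

/-!
# P155, BD block, rays (1): steps along a hyperbolic ray, lattice paths
-/

namespace Vale.Agent.P155.H550

open Finset Metric Set Vale.Agent.P155 Vale.Agent.P155.T211B

/-- `G` is the (holomorphic) inverse of the Riemann map `φ`. -/
structure IsInv (T : Temp) (φ G : ℂ → ℂ) : Prop where
  diff : DifferentiableOn ℂ G (ball 0 1)
  maps : ∀ w ∈ ball (0 : ℂ) 1, G w ∈ U T
  right : ∀ w ∈ ball (0 : ℂ) 1, φ (G w) = w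
  left : ∀ z ∈ U T, G (φ z) = z

variable {T : Temp} {φ G : ℂ → ℂ}

theorem IsInv.inj (h : IsInv T φ G) : InjOn G (ball 0 1) := by
  intro x hx y hy hxy
  rw [← h.right x hx, ← h.right y hy, hxy]

/-- distance to the complement of the polygon -/
noncomputable def dU (T : Temp) (z : ℂ) : ℝ := infDist z (U T)ᶜ

theorem dU_pos {z : ℂ} (hz : z ∈ U T) : 0 < dU T z := by
  unfold dU
  rw [← (U_open T).isClosed_compl.notMem_iff_infDist_pos (compl_ne T)]
  simpa using hz

theorem ball_dU (z : ℂ) : ball z (dU T z) ⊆ U T := by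
  intro w hw
  by_contra hc
  have h1 : infDist z (U T)ᶜ ≤ dist z w := infDist_le_dist_of_mem hc
  rw [mem_ball, dist_comm] at hw
  unfold dU at hw
  linarith

theorem le_dU {z : ℂ} {r : ℝ} (h : ball z r ⊆ U T) : r ≤ dU T z := by
  unfold dU
  by_contra hc
  push Not at hc
  obtain ⟨w, hw, hd⟩ := (infDist_lt_iff (compl_ne T)).1 hc
  exact hw (h (by rw [mem_ball, dist_comm]; exact hd))

theorem dU_lip (z w : ℂ) : dU T z ≤ dU T w + ‖z - w‖ := by
  have := infDist_le_infDist_add_dist (s := (U T)ᶜ) (x := z) (y := w)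
  rwa [dist_eq_norm] at this

theorem mem_of_dU_pos {z : ℂ} (h : 0 < dU T z) : z ∈ U T := ball_dU z (mem_ball_self h)

/-- **Koebe step** -/
theorem koebe_step (h : IsRM T φ) (hG : IsInv T φ G) {x x' : ℂ} (hx : ‖x‖ < 1)
    (hx' : ‖x' - x‖ < (1 - ‖x‖) / 400) : ‖G x' - G x‖ < dU T (G x) / 4 := by
  have hxb : x ∈ ball (0 : ℂ) 1 := by rw [mem_ball_zero_iff]; exact hx
  have hpU := hG.maps x hxb
  set p := G x with hp
  set D := dU T p with hD
  have hD0 : 0 < D := dU_pos hpU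
  have hρ : 0 < 1 - ‖x‖ := by linarith
  have hsub : ball x (1 - ‖x‖) ⊆ ball (0 : ℂ) 1 := by
    intro w hw
    rw [mem_ball, dist_eq_norm] at hw
    rw [mem_ball_zero_iff]
    have := norm_add_le (w - x) x
    rw [sub_add_cancel] at this
    linarith
  -- (1)
  have k1 := koebe_image hρ (hG.diff.mono hsub) (hG.inj.mono hsub)
  have k2 : (1 - ‖x‖) * ‖deriv G x‖ / 10 ≤ D := by
    apply le_dU
    refine k1.trans ?_
    rintro _ ⟨w, hw, rfl⟩
    exact hG.maps w (hsub hw)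
  -- derivatives
  have hGd : HasDerivAt G (deriv G x) x :=
    (hG.diff.differentiableAt (isOpen_ball.mem_nhds hxb)).hasDerivAt
  have hφd : HasDerivAt φ (deriv φ p) p :=
    (h.diff.differentiableAt ((U_open T).mem_nhds hpU)).hasDerivAt
  have hprod : deriv φ p * deriv G x = 1 := by
    have h1 : HasDerivAt (fun w => φ (G w)) (deriv φ p * deriv G x) x := hφd.comp x hGd
    have h2 : HasDerivAt (fun w : ℂ => w) 1 x := hasDerivAt_id x
    have h3 : (fun w => φ (G w)) =ᶠ[nhds x] fun w => w := by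
      filter_upwards [isOpen_ball.mem_nhds hxb] with w hw
      exact hG.right w hw
    exact (h1.congr_of_eventuallyEq h3.symm).unique h2
  have hnn : ‖deriv φ p‖ * ‖deriv G x‖ = 1 := by rw [← norm_mul, hprod, norm_one]
  -- (2)
  have hsub2 : ball p (D / 4) ⊆ U T := (ball_subset_ball (by linarith)).trans (ball_dU p)
  have k3 := koebe_image (by positivity : 0 < D / 4) (h.diff.mono hsub2) (h.inj.mono hsub2)
  have hφp : φ p = x := hG.right x hxb
  rw [hφp] at k3
  have k4 : (1 - ‖x‖) / 400 ≤ D / 4 * ‖deriv φ p‖ / 10 := by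
    have h0 : 0 ≤ ‖deriv φ p‖ := norm_nonneg _
    have h1 : (1 - ‖x‖) * ‖deriv G x‖ / 10 * ‖deriv φ p‖ ≤ D * ‖deriv φ p‖ :=
      mul_le_mul_of_nonneg_right k2 h0
    have h2 : (1 - ‖x‖) * ‖deriv G x‖ / 10 * ‖deriv φ p‖ = (1 - ‖x‖) / 10 := by
      calc _ = (1 - ‖x‖) / 10 * (‖deriv φ p‖ * ‖deriv G x‖) := by ring
        _ = _ := by rw [hnn, mul_one]
    linarith
  have hx2 : x' ∈ ball x (D / 4 * ‖deriv φ p‖ / 10) := by
    rw [mem_ball, dist_eq_norm]; linarith
  obtain ⟨w, hw, hwx⟩ := k3 hx2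
  have hwU := hsub2 hw
  have : G x' = w := by rw [← hwx]; exact hG.left w hwU
  rw [this]
  rwa [mem_ball, dist_eq_norm] at hw

/-- increments of `th` -/
theorem th_step {t h : ℝ} (ht : 0 ≤ t) (hh : 0 ≤ h) : |th (t + h) - th t| ≤ h * (1 - th t) := by
  have hmono : ∀ s, t ≤ s → th t ≤ th s := by
    have hm : MonotoneOn th (Ici t) := by
      apply monotoneOn_of_deriv_nonneg (convex_Ici t)
      · exact fun x _ => (hasDerivAt_th x).continuousAt.continuousWithinAt
      · exact fun x _ => (hasDerivAt_th x).differentiableAt.differentiableWithinAt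
      · intro x _
        rw [(hasDerivAt_th x).deriv]
        have := abs_th_lt x
        have h2 : th x ^ 2 < 1 := by rw [sq_lt_one_iff_abs_lt_one]; exact this
        linarith
    intro s hs
    exact hm (mem_Ici.2 le_rfl) (mem_Ici.2 hs) hs
  have key : ∀ x ∈ Icc t (t + h), ‖deriv th x‖ ≤ 1 - th t := by
    intro x hx
    rw [(hasDerivAt_th x).deriv, Real.norm_eq_abs]
    have h1 := abs_th_lt x
    have h2 : th x ^ 2 < 1 := by rw [sq_lt_one_iff_abs_lt_one]; exact h1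
    rw [abs_of_nonneg (by linarith)]
    have h3 := hmono x hx.1
    have h4 := th_nonneg ht
    have h5 : th x < 1 := (abs_lt.1 h1).2
    nlinarith
  have := Convex.norm_image_sub_le_of_norm_deriv_le (f := th) (C := 1 - th t)
    (s := Icc t (t + h)) (x := t) (y := t + h)
    (fun x _ => (hasDerivAt_th x).differentiableAt) key (convex_Icc _ _)
    ⟨le_rfl, by linarith⟩ ⟨by linarith, le_rfl⟩
  rw [Real.norm_eq_abs, Real.norm_eq_abs] at this
  rw [add_sub_cancel_left, abs_of_nonneg hh] at this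
  linarith

/-- the points of the ray -/
noncomputable def rp (G : ℂ → ℂ) (t : ℝ) : ℂ := G (th t : ℂ)

theorem th_mem (t : ℝ) : (th t : ℂ) ∈ ball (0 : ℂ) 1 := by
  rw [mem_ball_zero_iff]; exact norm_th_lt t

theorem rp_step (h : IsRM T φ) (hG : IsInv T φ G) {t : ℝ} (ht : 0 ≤ t) :
    ‖rp G (t + 1 / 500) - rp G t‖ < dU T (rp G t) / 4 := by
  apply koebe_step h hG (norm_th_lt t)
  have h1 := th_step ht (by norm_num : (0 : ℝ) ≤ 1 / 500)
  have h2 : ‖(th t : ℂ)‖ = th t := by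
    rw [Complex.norm_real, Real.norm_of_nonneg (th_nonneg ht)]
  have h3 : ‖(th t : ℂ)‖ < 1 := norm_th_lt t
  rw [h2] at h3
  rw [← Complex.ofReal_sub, Complex.norm_real, Real.norm_eq_abs, h2]
  linarith

/-! ### lattice paths -/

/-- one-dimensional path -/
theorem path1 (a b : ℤ) : ∃ e : ℕ → ℤ, e 0 = a ∧ e (b - a).natAbs = b ∧
    (∀ j < (b - a).natAbs, |e j - e (j + 1)| = 1) ∧
    ∀ j ≤ (b - a).natAbs, (a ≤ e j ∧ e j ≤ b) ∨ (b ≤ e j ∧ e j ≤ a) := by
  rcases le_total a b with h | h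
  · refine ⟨fun j => a + j, by simp, ?_, ?_, ?_⟩
    · show a + ((b - a).natAbs : ℤ) = b
      omega
    · intro j _
      show |a + (j : ℤ) - (a + ((j + 1 : ℕ) : ℤ))| = 1
      have : a + (j : ℤ) - (a + ((j + 1 : ℕ) : ℤ)) = -1 := by push_cast; ring
      rw [this]; rfl
    · intro j hj
      left
      show a ≤ a + (j : ℤ) ∧ a + (j : ℤ) ≤ b
      omega
  · refine ⟨fun j => a - j, by simp, ?_, ?_, ?_⟩
    · show a - ((b - a).natAbs : ℤ) = b
      omega
    · intro j _
      show |a - (j : ℤ) - (a - ((j + 1 : ℕ) : ℤ))| = 1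
      have : a - (j : ℤ) - (a - ((j + 1 : ℕ) : ℤ)) = 1 := by push_cast; ring
      rw [this]; rfl
    · intro j hj
      right
      show b ≤ a - (j : ℤ) ∧ a - (j : ℤ) ≤ a
      omega

/-- `L`-shaped path -/
theorem lpath (a b : Pt) : ∃ (n : ℕ) (e : ℕ → Pt), n = (b.1 - a.1).natAbs + (b.2 - a.2).natAbs ∧
    e 0 = a ∧ e n = b ∧ (∀ j < n, Adj (e j) (e (j + 1))) ∧
    ∀ j ≤ n, ((e j).2 = a.2 ∧ ((a.1 ≤ (e j).1 ∧ (e j).1 ≤ b.1) ∨ (b.1 ≤ (e j).1 ∧ (e j).1 ≤ a.1))) ∨
      ((e j).1 = b.1 ∧ ((a.2 ≤ (e j).2 ∧ (e j).2 ≤ b.2) ∨ (b.2 ≤ (e j).2 ∧ (e j).2 ≤ a.2))) := by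
  obtain ⟨e1, p1, p2, p3, p4⟩ := path1 a.1 b.1
  obtain ⟨e2, q1, q2, q3, q4⟩ := path1 a.2 b.2
  set n1 := (b.1 - a.1).natAbs with hn1
  set n2 := (b.2 - a.2).natAbs with hn2
  refine ⟨n1 + n2, fun j => (if j ≤ n1 then e1 j else b.1, if j ≤ n1 then a.2 else e2 (j - n1)), rfl,
    ?_, ?_, ?_, ?_⟩
  · simp only [Nat.zero_le, if_true, p1]
  · by_cases h : n1 + n2 ≤ n1
    · have h0 : n2 = 0 := by omega
      have h1 : a.2 = b.2 := by rw [← q2, h0, q1]
      simp only [h0, add_zero, le_refl, if_true, p2, h1]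
    · simp only [h, if_false]
      rw [Nat.add_sub_cancel_left, q2]
  · intro j hj
    unfold Adj
    by_cases h1 : j + 1 ≤ n1
    · have h2 : j ≤ n1 := by omega
      simp only [h1, h2, if_true, sub_self, abs_zero, add_zero]
      exact p3 j (by omega)
    · by_cases h2 : j ≤ n1
      · have h3 : j = n1 := by omega
        subst h3
        simp only [h1, le_refl, if_true, if_false, p2, sub_self, abs_zero, zero_add]
        rw [Nat.add_sub_cancel_left, ← q1]
        exact q3 0 (by omega)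
      · simp only [h1, h2, if_false, sub_self, abs_zero, zero_add]
        have h3 : j + 1 - n1 = (j - n1) + 1 := by omega
        rw [h3]
        exact q3 (j - n1) (by omega)
  · intro j hj
    by_cases h : j ≤ n1
    · left
      simp only [h, if_true, true_and]
      exact p4 j h
    · right
      simp only [h, if_false, true_and]
      exact q4 (j - n1) (by omega)

/-- a point of `[x, x+1]` between `u` and `v` for an integer `x` between the integer parts -/
theorem between {u v : ℝ} {x : ℤ} (h : (⌊u⌋ ≤ x ∧ x ≤ ⌊v⌋) ∨ (⌊v⌋ ≤ x ∧ x ≤ ⌊u⌋)) :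
    ∃ w : ℝ, (x : ℝ) ≤ w ∧ w ≤ x + 1 ∧ |w - u| ≤ |v - u| := by
  have u1 := Int.floor_le u
  have u2 := Int.lt_floor_add_one u
  have v1 := Int.floor_le v
  have v2 := Int.lt_floor_add_one v
  by_cases hx : x = ⌊u⌋
  · subst hx
    exact ⟨u, u1, u2.le, by simp⟩
  · rcases h with ⟨h1, h2⟩ | ⟨h1, h2⟩
    · have h3 : ⌊u⌋ + 1 ≤ x := by omega
      have h3' : ((⌊u⌋ + 1 : ℤ) : ℝ) ≤ x := by exact_mod_cast h3
      have h2' : (x : ℝ) ≤ ⌊v⌋ := by exact_mod_cast h2
      push_cast at h3'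
      refine ⟨x, le_rfl, by linarith, ?_⟩
      rw [abs_of_nonneg (by linarith), abs_of_nonneg (by linarith)]
      linarith
    · have h3 : x + 1 ≤ ⌊u⌋ := by omega
      have h3' : ((x + 1 : ℤ) : ℝ) ≤ ⌊u⌋ := by exact_mod_cast h3
      have h1' : (⌊v⌋ : ℝ) ≤ x := by exact_mod_cast h1
      push_cast at h3'
      refine ⟨x + 1, by linarith, le_rfl, ?_⟩
      rw [abs_of_nonpos (by linarith), abs_of_nonpos (by linarith)]
      linarith

/-- the cell of a point -/
noncomputable def fl (z : ℂ) : Pt := (⌊z.re⌋, ⌊z.im⌋)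

theorem mem_fl (z : ℂ) : z ∈ sq (fl z) := by
  rw [mem_sq]
  exact ⟨Int.floor_le _, (Int.lt_floor_add_one _).le, Int.floor_le _, (Int.lt_floor_add_one _).le⟩

theorem fl_cc (z : Pt) : fl (cc z) = z := by
  unfold fl cc
  ext
  · show ⌊(z.1 : ℝ) + 1 / 2⌋ = z.1
    rw [Int.floor_eq_iff]
    constructor <;> linarith
  · show ⌊(z.2 : ℝ) + 1 / 2⌋ = z.2
    rw [Int.floor_eq_iff]
    constructor <;> linarith

/-- **the cells between two near points** -/
theorem cells_between {p p' : ℂ} (hD : 0 < dU T p) (hp : ‖p' - p‖ < dU T p / 4) :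
    ∃ (n : ℕ) (e : ℕ → Pt) (w : ℝ), 0 ≤ w ∧ n * w ≤ 4 ∧ e 0 = fl p ∧ e n = fl p' ∧
      (∀ j < n, Adj (e j) (e (j + 1))) ∧ ∀ j ≤ n, e j ∈ T.cells ∧ wt T (e j) ≤ w := by
  obtain ⟨n, e, hn, h0, hend, hadj, hbt⟩ := lpath (fl p) (fl p')
  set D := dU T p with hDdef
  set Δ := ‖p' - p‖ with hΔ
  have hre : |p'.re - p.re| ≤ Δ := by
    have := Complex.abs_re_le_norm (p' - p)
    rwa [Complex.sub_re] at this
  have him : |p'.im - p.im| ≤ Δ := by
    have := Complex.abs_im_le_norm (p' - p)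
    rwa [Complex.sub_im] at this
  have hpt : ∀ j ≤ n, ∃ W : ℂ, W ∈ sq (e j) ∧ ‖W - p‖ ≤ Δ := by
    intro j hj
    rcases hbt j hj with ⟨h1, h2⟩ | ⟨h1, h2⟩
    · obtain ⟨w, w1, w2, w3⟩ := between (u := p.re) (v := p'.re) h2
      refine ⟨⟨w, p.im⟩, ?_, ?_⟩
      · rw [mem_sq]
        refine ⟨w1, w2, ?_, ?_⟩
        · rw [h1]; exact Int.floor_le _
        · rw [h1]; exact (Int.lt_floor_add_one _).le
      · have e1 : (⟨w, p.im⟩ - p : ℂ) = ((w - p.re : ℝ) : ℂ) := by
          apply Complex.ext <;> simp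
        rw [e1, Complex.norm_real, Real.norm_eq_abs]
        exact w3.trans hre
    · obtain ⟨w, w1, w2, w3⟩ := between (u := p.im) (v := p'.im) h2
      refine ⟨⟨p'.re, w⟩, ?_, ?_⟩
      · rw [mem_sq]
        refine ⟨?_, ?_, w1, w2⟩
        · rw [h1]; exact Int.floor_le _
        · rw [h1]; exact (Int.lt_floor_add_one _).le
      · have e1 : ‖(⟨p'.re, w⟩ - p : ℂ)‖ ^ 2 ≤ Δ ^ 2 := by
          rw [hΔ, ← Complex.normSq_eq_norm_sq, ← Complex.normSq_eq_norm_sq, Complex.normSq_apply,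
            Complex.normSq_apply]
          simp only [Complex.sub_re, Complex.sub_im]
          have : (w - p.im) * (w - p.im) ≤ (p'.im - p.im) * (p'.im - p.im) := by
            rw [← abs_mul_abs_self (w - p.im), ← abs_mul_abs_self (p'.im - p.im)]
            exact mul_self_le_mul_self (abs_nonneg _) w3
          linarith
        exact (pow_le_pow_iff_left₀ (norm_nonneg _) (norm_nonneg _) two_ne_zero).1 e1
  have hcell : ∀ j ≤ n, e j ∈ T.cells ∧ wt T (e j) ≤ min 1 (8 / (3 * D)) := by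
    intro j hj
    obtain ⟨W, hW, hWp⟩ := hpt j hj
    have hWU : W ∈ U T := by
      apply ball_dU p
      rw [mem_ball, dist_eq_norm]
      linarith
    refine ⟨mem_U.1 hWU _ hW, le_min (wt_le_one T _) ?_⟩
    have h1 := infDist_le (T := T) hW
    have h2 := dU_lip (T := T) p W
    rw [norm_sub_rev] at h2
    change dU T W ≤ _ at h1
    unfold wt
    rw [inv_eq_one_div, div_le_div_iff₀ (by positivity) (by positivity)]
    linarith
  refine ⟨n, e, min 1 (8 / (3 * D)), by positivity, ?_, h0, hend, hadj, hcell⟩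
  -- the number of steps
  have hn' : (n : ℝ) ≤ 2 * Δ + 2 := by
    have a1 : (((fl p').1 - (fl p).1).natAbs : ℝ) ≤ Δ + 1 := by
      have e1 : (((fl p').1 - (fl p).1).natAbs : ℝ) = |(⌊p'.re⌋ : ℝ) - ⌊p.re⌋| := by
        rw [Nat.cast_natAbs]; push_cast; rfl
      rw [e1, abs_le]
      have u1 := Int.floor_le p.re
      have u2 := Int.lt_floor_add_one p.re
      have v1 := Int.floor_le p'.re
      have v2 := Int.lt_floor_add_one p'.re
      obtain ⟨s1, s2⟩ := abs_le.1 hre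
      constructor <;> linarith
    have a2 : (((fl p').2 - (fl p).2).natAbs : ℝ) ≤ Δ + 1 := by
      have e1 : (((fl p').2 - (fl p).2).natAbs : ℝ) = |(⌊p'.im⌋ : ℝ) - ⌊p.im⌋| := by
        rw [Nat.cast_natAbs]; push_cast; rfl
      rw [e1, abs_le]
      have u1 := Int.floor_le p.im
      have u2 := Int.lt_floor_add_one p.im
      have v1 := Int.floor_le p'.im
      have v2 := Int.lt_floor_add_one p'.im
      obtain ⟨s1, s2⟩ := abs_le.1 him
      constructor <;> linarith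
    rw [hn]
    push_cast
    linarith
  have hm0 : 0 ≤ min 1 (8 / (3 * D)) := by positivity
  have hm1 : min 1 (8 / (3 * D)) ≤ 1 := min_le_left _ _
  have hm2 : D * min 1 (8 / (3 * D)) ≤ 8 / 3 := by
    have : D * min 1 (8 / (3 * D)) ≤ D * (8 / (3 * D)) :=
      mul_le_mul_of_nonneg_left (min_le_right _ _) hD.le
    refine this.trans (le_of_eq ?_)
    field_simp
  nlinarith

end Vale.Agent.P155.H550
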