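import Vale.Agent.P155.H550.Ray1

/-!
# P155, BD block, rays (2): the cell walk along a hyperbolic ray
-/

namespace Vale.Agent.P155.H550

open Finset Metric Set Vale.Agent.P155 Vale.Agent.P155.T211B

variable {T : Temp} {φ G : ℂ → ℂ}

/-- a cell walk from `z` to `x`, near points `th (s i)`, with a bound of the weighted sums -/
def RW (T : Temp) (φ : ℂ → ℂ) (t0 : ℝ) (B : ℝ) (z x : Pt) (σ : ℝ → ℝ) : Prop :=
  ∃ (m : ℕ) (q : ℕ → Pt) (s : ℕ → ℝ), q 0 = z ∧ q m = x ∧ (∀ i < m, Adj (q i) (q (i + 1))) ∧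
    (∀ i ≤ m, q i ∈ T.cells ∧ t0 ≤ s i ∧ hyp (φ (cc (q i))) (th (s i)) ≤ B) ∧
    ∀ a > 0, ∑ i ∈ range (m + 1), wt T (q i) * Real.exp (-a * (s i - t0)) ≤ σ a

theorem RW.mono {t0 B B' : ℝ} {z x : Pt} {σ σ' : ℝ → ℝ} (hw : RW T φ t0 B z x σ) (hB : B ≤ B')
    (hσ : ∀ a > 0, σ a ≤ σ' a) : RW T φ t0 B' z x σ' := by
  obtain ⟨m, q, s, h1, h2, h3, h4, h5⟩ := hw
  exact ⟨m, q, s, h1, h2, h3, fun i hi => ⟨(h4 i hi).1, (h4 i hi).2.1, (h4 i hi).2.2.trans hB⟩,
    fun a ha => (h5 a ha).trans (hσ a ha)⟩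

theorem RW.step {t0 B : ℝ} {z x x' : Pt} {σ : ℝ → ℝ} (hw : RW T φ t0 B z x σ)
    (hx' : x' ∈ T.cells) (hadj : Adj x x') {s' : ℝ} (hs : t0 ≤ s')
    (hh : hyp (φ (cc x')) (th s') ≤ B) :
    RW T φ t0 B z x' (fun a => σ a + wt T x' * Real.exp (-a * (s' - t0))) := by
  obtain ⟨m, q, s, h1, h2, h3, h4, h5⟩ := hw
  refine ⟨m + 1, fun i => if i ≤ m then q i else x', fun i => if i ≤ m then s i else s', ?_, ?_, ?_,
    ?_, ?_⟩
  · simp only [Nat.zero_le, if_true, h1]
  · have : ¬ m + 1 ≤ m := by omega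
    simp only [this, if_false]
  · intro i hi
    have hi' : i ≤ m := by omega
    by_cases h : i + 1 ≤ m
    · simp only [hi', h, if_true]
      exact h3 i (by omega)
    · have h6 : i = m := by omega
      subst h6
      simp only [le_refl, if_true, h, if_false, h2]
      exact hadj
  · intro i hi
    by_cases h : i ≤ m
    · simp only [h, if_true]
      exact h4 i h
    · simp only [h, if_false]
      exact ⟨hx', hs, hh⟩
  · intro a ha
    rw [Finset.sum_range_succ]
    have : ¬ m + 1 ≤ m := by omega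
    simp only [this, if_false]
    have e : ∑ i ∈ range (m + 1), wt T (if i ≤ m then q i else x') *
        Real.exp (-a * ((if i ≤ m then s i else s') - t0)) =
        ∑ i ∈ range (m + 1), wt T (q i) * Real.exp (-a * (s i - t0)) := by
      refine Finset.sum_congr rfl fun i hi => ?_
      have : i ≤ m := by have := Finset.mem_range.1 hi; omega
      simp only [this, if_true]
    rw [e]
    have := h5 a ha
    linarith

/-- extension by a path of small total weight -/
theorem RW.path (h : IsRM T φ) {t0 B : ℝ} {z : Pt} {σ : ℝ → ℝ} {n : ℕ} {e : ℕ → Pt} {w s H : ℝ}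
    (hw : RW T φ t0 B z (e 0) σ) (hw0 : 0 ≤ w) (hnw : n * w ≤ 4)
    (hadj : ∀ j < n, Adj (e j) (e (j + 1))) (hc : ∀ j ≤ n, e j ∈ T.cells ∧ wt T (e j) ≤ w)
    (hs : t0 ≤ s) (hH : hyp (φ (cc (e 0))) (th s) ≤ H) (hB : H + 72 ≤ B) :
    RW T φ t0 B z (e n) (fun a => σ a + 4 * Real.exp (-a * (s - t0))) := by
  have key : ∀ j ≤ n, RW T φ t0 B z (e j) (fun a => σ a + j * w * Real.exp (-a * (s - t0))) ∧
      hyp (φ (cc (e j))) (th s) ≤ H + 18 * (j * w) := by
    intro j
    induction j with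
    | zero =>
      intro _
      refine ⟨hw.mono le_rfl (fun a _ => ?_), ?_⟩
      · simp
      · simpa using hH
    | succ j ih =>
      intro hj
      obtain ⟨i1, i2⟩ := ih (by omega)
      have c1 := hc j (by omega)
      have c2 := hc (j + 1) hj
      have hA := hadj j (by omega)
      have hyp1 := hyp_adj h c1.1 c2.1 hA
      have htri := hyp_triangle (x := φ (cc (e (j + 1)))) (y := φ (cc (e j))) (z := (th s : ℂ))
        (h.lt (cc_mem_U c2.1)) (h.lt (cc_mem_U c1.1)) (norm_th_lt s)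
      rw [hyp_comm (φ (cc (e (j + 1)))) (φ (cc (e j)))] at htri
      have hbound : hyp (φ (cc (e (j + 1)))) (th s) ≤ H + 18 * (((j + 1 : ℕ) : ℝ) * w) := by
        push_cast
        have := c1.2
        linarith
      have hle : H + 18 * (((j + 1 : ℕ) : ℝ) * w) ≤ B := by
        have h1 : ((j + 1 : ℕ) : ℝ) * w ≤ n * w := by
          apply mul_le_mul_of_nonneg_right _ hw0
          exact_mod_cast hj
        linarith
      refine ⟨(i1.step c2.1 hA hs (hbound.trans hle)).mono le_rfl (fun a _ => ?_), hbound⟩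
      have he := Real.exp_pos (-a * (s - t0))
      have := mul_le_mul_of_nonneg_right c2.2 he.le
      push_cast
      linarith
  refine (key n le_rfl).1.mono le_rfl (fun a _ => ?_)
  have he := Real.exp_pos (-a * (s - t0))
  have := mul_le_mul_of_nonneg_right hnw he.le
  linarith

/-- the time of the `k`-th point -/
noncomputable def tk (t0 : ℝ) (k : ℕ) : ℝ := t0 + k * (1 / 500)

theorem tk_succ (t0 : ℝ) (k : ℕ) : tk t0 (k + 1) = tk t0 k + 1 / 500 := by
  unfold tk; push_cast; ring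

theorem tk_zero (t0 : ℝ) : tk t0 0 = t0 := by simp [tk]

theorem le_tk (t0 : ℝ) (k : ℕ) : t0 ≤ tk t0 k := by unfold tk; have : (0 : ℝ) ≤ k := Nat.cast_nonneg _; linarith

theorem start (hG : IsInv T φ G) {z : Pt} (hz : z ∈ T.cells) {t0 : ℝ} (h0 : φ (cc z) = th t0) :
    rp G t0 = cc z := by
  unfold rp
  rw [← h0]
  exact hG.left _ (cc_mem_U hz)

theorem half_le (T : Temp) {z : Pt} (hz : z ∈ T.cells) : 1 / 2 ≤ dU T (cc z) := by
  have h1 := le_dU (ball_cc (T := T) (x := z))
  have h2 : (1 : ℝ) ≤ dF T.cells z := by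
    exact_mod_cast H904.dF_pos (exists_notMem_cells T) hz
  linarith

theorem rp_mem (hG : IsInv T φ G) (t : ℝ) : rp G t ∈ U T := hG.maps _ (th_mem t)

theorem phi_rp (hG : IsInv T φ G) (t : ℝ) : φ (rp G t) = th t := hG.right _ (th_mem t)

theorem hyp_fl (h : IsRM T φ) (hG : IsInv T φ G) {t : ℝ} (hD : 1 / 8 < dU T (rp G t)) :
    hyp (φ (cc (fl (rp G t)))) (th t) ≤ 72 := by
  have h1 := mem_U.1 (rp_mem hG t) _ (mem_fl _)
  have h2 := hyp_cell h h1 (mem_fl (rp G t)) ((ball_subset_ball hD.le).trans (ball_dU _))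
  rw [phi_rp hG] at h2
  rwa [hyp_comm]

/-- **the walk to the `k`-th point** -/
theorem walk_to (h : IsRM T φ) (hG : IsInv T φ G) {z : Pt} (hz : z ∈ T.cells) {t0 : ℝ}
    (ht0 : 0 ≤ t0) (h0 : φ (cc z) = th t0) (k : ℕ) (hk : ∀ j < k, 1 / 8 < dU T (rp G (tk t0 j))) :
    RW T φ t0 150 z (fl (rp G (tk t0 k)))
      (fun a => 1 + 4 * ∑ j ∈ range k, Real.exp (-a / 500) ^ j) := by
  induction k with
  | zero =>
    rw [tk_zero, start hG hz h0, fl_cc]
    refine ⟨0, fun _ => z, fun _ => t0, rfl, rfl, by simp, ?_, ?_⟩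
    · intro i _
      refine ⟨hz, le_rfl, ?_⟩
      rw [h0, hyp_self]; norm_num
    · intro a _
      simp only [zero_add, Finset.range_one, Finset.sum_singleton, sub_self, mul_zero, Real.exp_zero,
        mul_one, Finset.range_zero, Finset.sum_empty, add_zero]
      exact wt_le_one T z
  | succ k ih =>
    have hw := ih (fun j hj => hk j (by omega))
    have hD := hk k (by omega)
    have hst := rp_step h hG (ht0.trans (le_tk t0 k))
    rw [← tk_succ] at hst
    obtain ⟨n, e, w, w0, nw, e0, en, hadj, hc⟩ := cells_between (dU_pos (rp_mem hG _)) hst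
    rw [← e0] at hw
    have hH := hyp_fl h hG hD
    rw [← e0] at hH
    have := hw.path h w0 nw hadj hc (le_tk t0 k) hH (by norm_num)
    rw [en] at this
    refine this.mono le_rfl (fun a _ => ?_)
    rw [Finset.sum_range_succ]
    have e1 : Real.exp (-a * (tk t0 k - t0)) = Real.exp (-a / 500) ^ k := by
      rw [← Real.exp_nat_mul]
      congr 1
      unfold tk
      ring
    simp only [e1]
    linarith

/-- the ray comes near the boundary -/
theorem exists_near (h : IsRM T φ) (hG : IsInv T φ G) {t0 : ℝ} (ht0 : 0 ≤ t0) :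
    ∃ k, dU T (rp G (tk t0 k)) ≤ 1 / 8 := by
  by_contra hc
  push Not at hc
  -- bounded hyperbolic distances
  obtain ⟨z, hz⟩ := cells_nonempty T
  have hfin : (T.cells).Finite := cells_finite T
  obtain ⟨M, hM⟩ := (hfin.image (fun x => hyp (φ (cc x)) (φ (cc z)))).bddAbove
  have hz0 : ‖φ (cc z)‖ < 1 := h.lt (cc_mem_U hz)
  have key : ∀ k : ℕ, (k : ℝ) * (1 / 500) ≤ 2 * (M + 72) := by
    intro k
    have hb : ∀ j, hyp (th (tk t0 j) : ℂ) (φ (cc z)) ≤ M + 72 := by
      intro j
      have h1 := hyp_fl h hG (hc j)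
      have hf := mem_U.1 (rp_mem hG (tk t0 j)) _ (mem_fl _)
      have h2 : hyp (φ (cc (fl (rp G (tk t0 j))))) (φ (cc z)) ≤ M :=
        hM (mem_image_of_mem _ hf)
      have h3 := hyp_triangle (norm_th_lt (tk t0 j)) (h.lt (cc_mem_U hf)) hz0
      rw [hyp_comm (th (tk t0 j) : ℂ) (φ (cc (fl _)))] at h3
      linarith
    have h1 := hb k
    have h2 := hb 0
    have h3 := hyp_triangle (norm_th_lt (tk t0 k)) hz0 (norm_th_lt (tk t0 0))
    rw [hyp_real, hyp_comm (φ (cc z))] at h3
    have h4 := le_abs_self (tk t0 k - tk t0 0)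
    have h5 : tk t0 k - tk t0 0 = (k : ℝ) * (1 / 500) := by unfold tk; push_cast; ring
    linarith
  obtain ⟨k, hk⟩ := exists_nat_gt (1000 * (M + 72))
  have := key k
  linarith

/-- **The ray**: a cell walk from `z` to the complement of the polygon, along the hyperbolic
ray `th t`, `t ≥ t0`. -/
theorem ray (h : IsRM T φ) (hG : IsInv T φ G) {z : Pt} (hz : z ∈ T.cells) {t0 : ℝ}
    (ht0 : 0 ≤ t0) (h0 : φ (cc z) = th t0) :
    ∃ (m : ℕ) (q : ℕ → Pt) (s : ℕ → ℝ), q 0 = z ∧ (∀ i ≤ m, Adj (q i) (q (i + 1))) ∧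
      (∀ i ≤ m, q i ∈ T.cells ∧ t0 ≤ s i ∧ hyp (φ (cc (q i))) (th (s i)) ≤ 200) ∧
      q (m + 1) ∉ T.cells ∧
      ∀ a > 0, ∑ i ∈ range (m + 1), wt T (q i) * Real.exp (-a * (s i - t0)) ≤
        2 + 4 / (1 - Real.exp (-a / 500)) := by
  classical
  have hex := exists_near h hG ht0
  set K := Nat.find hex with hK
  have hKs : dU T (rp G (tk t0 K)) ≤ 1 / 8 := Nat.find_spec hex
  have hKm : ∀ j < K, 1 / 8 < dU T (rp G (tk t0 j)) := fun j hj => by
    have := Nat.find_min hex hj
    push Not at this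
    exact this
  have hw := walk_to h hG hz ht0 h0 K hKm
  set f := fl (rp G (tk t0 K)) with hf
  have hfc : f ∈ T.cells := mem_U.1 (rp_mem hG _) _ (mem_fl _)
  obtain ⟨p, hp, hpd⟩ := (U_open T).isClosed_compl.exists_infDist_eq_dist (compl_ne T)
    (rp G (tk t0 K))
  obtain ⟨f', hf', hff, e, he, hadj⟩ := exit hfc (mem_fl _) hp (by rw [← hpd]; exact hKs)
  -- the walk to `f'`
  have hw' : RW T φ t0 200 z f' (fun a => 2 + 4 / (1 - Real.exp (-a / 500))) := by
    have hgeo : ∀ a > (0 : ℝ), ∑ j ∈ range K, Real.exp (-a / 500) ^ j ≤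
        1 / (1 - Real.exp (-a / 500)) := by
      intro a ha
      have h1 : Real.exp (-a / 500) < 1 := by
        rw [Real.exp_lt_one_iff]; linarith
      have h2 := Real.exp_pos (-a / 500)
      rw [le_div_iff₀ (by linarith)]
      have h3 := geom_sum_mul_neg (Real.exp (-a / 500)) K
      rw [h3]
      have := pow_pos h2 K
      linarith
    have hb : ∀ a > (0 : ℝ), 1 + 4 * ∑ j ∈ range K, Real.exp (-a / 500) ^ j ≤
        1 + 4 / (1 - Real.exp (-a / 500)) := by
      intro a ha
      have := hgeo a ha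
      have e1 : 4 / (1 - Real.exp (-a / 500)) = 4 * (1 / (1 - Real.exp (-a / 500))) := by ring
      rw [e1]; linarith
    rcases hff with hff | hff
    · rw [hff]
      exact hw.mono (by norm_num) (fun a ha => by have := hb a ha; linarith)
    · obtain ⟨m, q, s, h1, h2, h3, h4, h5⟩ := hw
      have hlast := h4 m le_rfl
      rw [h2] at hlast
      have hw2 : RW T φ t0 200 z f (fun a => 1 + 4 / (1 - Real.exp (-a / 500))) :=
        ⟨m, q, s, h1, h2, h3, fun i hi => ⟨(h4 i hi).1, (h4 i hi).2.1, (h4 i hi).2.2.trans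
          (by norm_num)⟩, fun a ha => (h5 a ha).trans (hb a ha)⟩
      have htri := hyp_triangle (x := φ (cc f')) (y := φ (cc f)) (z := (th (s m) : ℂ))
        (h.lt (cc_mem_U hf')) (h.lt (cc_mem_U hfc)) (norm_th_lt _)
      have hyp1 := hyp_adj h hfc hf' hff
      rw [hyp_comm (φ (cc f')) (φ (cc f))] at htri
      have hwt := wt_le_one T f
      refine (hw2.step hf' hff hlast.2.1 (by linarith [hlast.2.2])).mono le_rfl (fun a ha => ?_)
      have h6 : Real.exp (-a * (s m - t0)) ≤ 1 := by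
        rw [Real.exp_le_one_iff]
        nlinarith [hlast.2.1]
      have h7 := wt_le_one T f'
      have h8 := (wt_pos T f').le
      have h9 := Real.exp_pos (-a * (s m - t0))
      nlinarith
  obtain ⟨m, q, s, h1, h2, h3, h4, h5⟩ := hw'
  refine ⟨m, fun i => if i ≤ m then q i else e, s, ?_, ?_, ?_, ?_, ?_⟩
  · simp only [Nat.zero_le, if_true, h1]
  · intro i hi
    by_cases hi' : i + 1 ≤ m
    · simp only [hi, hi', if_true]
      exact h3 i (by omega)
    · have : i = m := by omega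
      subst this
      simp only [le_refl, if_true, hi', if_false, h2]
      exact hadj
  · intro i hi
    simp only [hi, if_true]
    exact h4 i hi
  · have : ¬ m + 1 ≤ m := by omega
    simp only [this, if_false]
    exact he
  · intro a ha
    refine le_trans (le_of_eq ?_) (h5 a ha)
    refine Finset.sum_congr rfl fun i hi => ?_
    have : i ≤ m := by have := Finset.mem_range.1 hi; omega
    simp only [this, if_true]

end Vale.Agent.P155.H550
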