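import Vale.Agent.P155.H550.Ray2
import Vale.Agent.P155.T211B.Inv
import Vale.Agent.P155.HT426.CovAsm

/-!
# P155, BD block, rays (3): normalisation and the double sum
-/

namespace Vale.Agent.P155.H550

open Finset Metric Set Vale.Agent.P155 Vale.Agent.P155.T211B
open scoped ComplexConjugate

variable {T : Temp} {φ : ℂ → ℂ}

theorem exists_isInv (h : IsRM T φ) : ∃ G, IsInv T φ G := by
  obtain ⟨G, h1, h2, h3, h4⟩ := exists_inv (U_open T) h.diff h.inj h.img
  exact ⟨G, h1, h2, h3, h4⟩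

/-- composition with a Möbius automorphism -/
theorem IsRM.mob (h : IsRM T φ) {a u : ℂ} (ha : ‖a‖ < 1) (hu : ‖u‖ = 1) :
    IsRM T (fun z => u * ((φ z - a) / (1 - conj a * φ z))) := by
  have hden : ∀ w : ℂ, ‖w‖ < 1 → 1 - conj a * w ≠ 0 := by
    intro w hw h0
    have := mob_den_pos hw ha
    rw [h0, norm_zero] at this
    norm_num at this
  have hu0 : u ≠ 0 := by
    intro h0
    rw [h0, norm_zero] at hu
    norm_num at hu
  refine ⟨?_, ?_, ?_⟩
  · exact ((h.diff.sub_const a).div ((h.diff.const_mul (conj a)).const_sub 1)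
      (fun z hz => hden _ (h.lt hz))).const_mul u
  · intro x hx y hy hxy
    apply h.inj hx hy
    have h1 := mul_left_cancel₀ hu0 hxy
    rw [div_eq_div_iff (hden _ (h.lt hx)) (hden _ (h.lt hy))] at h1
    have h2 : (φ x - φ y) * (1 - conj a * a) = 0 := by linear_combination h1
    rcases mul_eq_zero.1 h2 with h3 | h3
    · exact sub_eq_zero.1 h3
    · exact absurd h3 (hden a ha)
  · apply Set.Subset.antisymm
    · rintro _ ⟨z, hz, rfl⟩
      rw [mem_ball_zero_iff, norm_mul, hu, one_mul]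
      exact mob_lt (h.lt hz) ha
    · intro w hw
      rw [mem_ball_zero_iff] at hw
      set v : ℂ := u⁻¹ * w with hv
      have hv1 : ‖v‖ < 1 := by rw [hv, norm_mul, norm_inv, hu, inv_one, one_mul]; exact hw
      have hna : ‖-a‖ < 1 := by rwa [norm_neg]
      have hζ := mob_lt hv1 hna
      rw [map_neg, neg_mul, sub_neg_eq_add, sub_neg_eq_add] at hζ
      have hm : (v + a) / (1 + conj a * v) ∈ φ '' U T := by
        rw [h.img, mem_ball_zero_iff]; exact hζ
      obtain ⟨ζ, hζU, hζe⟩ := hm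
      refine ⟨ζ, hζU, ?_⟩
      have hd1 : 1 + conj a * v ≠ 0 := by
        have h0 := mob_den_pos hv1 hna
        rw [map_neg, neg_mul, sub_neg_eq_add] at h0
        intro h1
        rw [h1, norm_zero] at h0
        norm_num at h0
      have hd2 := hden _ (h.lt hζU)
      show u * ((φ ζ - a) / (1 - conj a * φ ζ)) = w
      have e1 : (φ ζ - a) / (1 - conj a * φ ζ) = v := by
        rw [div_eq_iff hd2]
        have e2 : φ ζ * (1 + conj a * v) = v + a := by
          rw [hζe, div_mul_cancel₀ _ hd1]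
        linear_combination e2
      rw [e1, hv, ← mul_assoc, mul_inv_cancel₀ hu0, one_mul]

theorem th_hyp {z w : ℂ} (hz : ‖z‖ < 1) (hw : ‖w‖ < 1) :
    th (hyp z w) = ‖(z - w) / (1 - conj w * z)‖ := by
  have h1 := one_sub_th (hyp z w)
  rw [cosh_half_hyp hz hw, one_div_one_div] at h1
  have h2 := mob_norm_sq hz hw
  have h3 : th (hyp z w) ^ 2 = ‖(z - w) / (1 - conj w * z)‖ ^ 2 := by rw [h2]; linarith
  exact (pow_left_inj₀ (th_nonneg (hyp_nonneg _ _)) (norm_nonneg _) two_ne_zero).1 h3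

/-- normalised Riemann map -/
theorem normalize (h : IsRM T φ) {z z' : Pt} (hz : z ∈ T.cells) (hz' : z' ∈ T.cells) :
    ∃ φ₁, IsRM T φ₁ ∧ φ₁ (cc z) = (th 0 : ℝ) ∧
      φ₁ (cc z') = (th (hyp (φ (cc z)) (φ (cc z'))) : ℝ) := by
  have ha := h.lt (cc_mem_U hz)
  have hb := h.lt (cc_mem_U hz')
  set a := φ (cc z) with hadef
  set b := φ (cc z') with hbdef
  set v : ℂ := (b - a) / (1 - conj a * b) with hv
  obtain ⟨u, hu, huv⟩ : ∃ u : ℂ, ‖u‖ = 1 ∧ u * v = (‖v‖ : ℝ) := by
    by_cases h0 : v = 0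
    · exact ⟨1, norm_one, by rw [h0]; simp⟩
    · have hn : (‖v‖ : ℝ) ≠ 0 := norm_ne_zero_iff.2 h0
      refine ⟨(‖v‖ : ℂ) / v, ?_, ?_⟩
      · rw [norm_div, Complex.norm_real, norm_norm, div_self hn]
      · rw [div_mul_cancel₀ _ h0]
  refine ⟨_, IsRM.mob h ha hu, ?_, ?_⟩
  · simp [th_zero, ← hadef]
  · show u * ((φ (cc z') - a) / (1 - conj a * φ (cc z'))) = _
    rw [← hbdef, ← hv, huv, hv, ← th_hyp hb ha, hyp_comm]

theorem hyp_neg (z w : ℂ) : hyp (-z) (-w) = hyp z w := by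
  unfold hyp
  rw [norm_neg, norm_neg, neg_sub_neg, norm_sub_rev]

theorem IsRM.neg (h : IsRM T φ) : IsRM T (fun z => -φ z) := by
  refine ⟨h.diff.neg, fun x hx y hy hxy => h.inj hx hy (neg_injective hxy), ?_⟩
  apply Set.Subset.antisymm
  · rintro _ ⟨z, hz, rfl⟩
    rw [mem_ball_zero_iff, norm_neg]
    exact h.lt hz
  · intro w hw
    rw [mem_ball_zero_iff, ← norm_neg] at hw
    have : -w ∈ φ '' U T := by rw [h.img, mem_ball_zero_iff]; exact hw
    obtain ⟨z, hz, hzw⟩ := this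
    exact ⟨z, hz, by show -φ z = w; rw [hzw, neg_neg]⟩

/-- **RAYS**, for every Riemann map -/
theorem rays_phi : ∀ a : ℝ, 0 < a → ∃ c C : ℝ, 0 < c ∧ ∀ (T : Temp) (φ : ℂ → ℂ), IsRM T φ →
    ∀ z ∈ T.cells, ∀ z' ∈ T.cells, ∃ (m m' : ℕ) (q q' : ℕ → Pt), q 0 = z ∧ q' 0 = z' ∧
      (∀ i ≤ m, q i ∈ T.cells ∧ Adj (q i) (q (i + 1))) ∧ q (m + 1) ∉ T.cells ∧
      (∀ i ≤ m', q' i ∈ T.cells ∧ Adj (q' i) (q' (i + 1))) ∧ q' (m' + 1) ∉ T.cells ∧
      ∑ i ∈ range (m + 1), ∑ j ∈ range (m' + 1),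
        wt T (q i) * wt T (q' j) * Real.exp (-a * kc T (q i) (q' j)) ≤
          C * Real.exp (-c * hyp (φ (cc z)) (φ (cc z'))) ∧
      ∀ i ≤ m, ∀ j ≤ m', c * hyp (φ (cc z)) (φ (cc z')) - C ≤ kc T (q i) (q' j) := by
  intro a ha
  set b : ℝ := a / 18 with hb
  have hb0 : 0 < b := by positivity
  set S : ℝ := 2 + 4 / (1 - Real.exp (-b / 500)) with hS
  have hS0 : 0 ≤ S := by
    have h1 : Real.exp (-b / 500) < 1 := by
      rw [Real.exp_lt_one_iff]; linarith
    have : 0 < 1 - Real.exp (-b / 500) := by linarith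
    positivity
  set c : ℝ := min b (1 / 18) with hc
  have hc0 : 0 < c := lt_min hb0 (by norm_num)
  refine ⟨c, max (Real.exp (b * 400) * S ^ 2) (400 / 18), hc0, ?_⟩
  intro T φ hφ z hz z' hz'
  set N : ℝ := hyp (φ (cc z)) (φ (cc z')) with hN
  have hN0 : 0 ≤ N := hyp_nonneg _ _
  obtain ⟨φ₁, h1, h1z, h1z'⟩ := normalize hφ hz hz'
  have h2 := IsRM.neg h1
  have h2z : (fun ζ => -φ₁ ζ) (cc z) = (th 0 : ℝ) := by
    show -φ₁ (cc z) = _
    rw [h1z, th_zero]; simp
  obtain ⟨G₁, hG₁⟩ := exists_isInv h1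
  obtain ⟨G₂, hG₂⟩ := exists_isInv h2
  obtain ⟨m, q, s, q0, qadj, qs, qend, qsum⟩ := ray h2 hG₂ hz le_rfl h2z
  obtain ⟨m', q', s', q0', qadj', qs', qend', qsum'⟩ := ray h1 hG₁ hz' hN0 h1z'
  -- the lower bound
  have low : ∀ i ≤ m, ∀ j ≤ m', s i + s' j - 400 ≤ 18 * kc T (q i) (q' j) := by
    intro i hi j hj
    obtain ⟨c1, c2, c3⟩ := qs i hi
    obtain ⟨d1, d2, d3⟩ := qs' j hj
    have e1 : hyp (φ₁ (cc (q i))) (th (-s i) : ℂ) ≤ 200 := by
      have : hyp (-φ₁ (cc (q i))) (th (s i)) ≤ 200 := c3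
      rw [← hyp_neg, neg_neg] at this
      rw [th_neg, Complex.ofReal_neg]
      exact this
    have hk := hyp_le_kc h1 c1 d1
    have t1 := hyp_triangle (norm_th_lt (-s i)) (h1.lt (cc_mem_U c1)) (norm_th_lt (s' j))
    have t2 := hyp_triangle (h1.lt (cc_mem_U c1)) (h1.lt (cc_mem_U d1)) (norm_th_lt (s' j))
    rw [hyp_real, hyp_comm (th (-s i) : ℂ)] at t1
    have t3 := neg_abs_le (-s i - s' j)
    linarith
  refine ⟨m, m', q, q', q0, q0', fun i hi => ⟨(qs i hi).1, qadj i hi⟩, qend,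
    fun i hi => ⟨(qs' i hi).1, qadj' i hi⟩, qend', ?_, ?_⟩
  · have hterm : ∀ i ∈ range (m + 1), ∀ j ∈ range (m' + 1),
        wt T (q i) * wt T (q' j) * Real.exp (-a * kc T (q i) (q' j)) ≤
        Real.exp (b * 400) * Real.exp (-b * N) *
          ((wt T (q i) * Real.exp (-b * (s i - 0))) * (wt T (q' j) * Real.exp (-b * (s' j - N)))) := by
      intro i hi j hj
      have hi' : i ≤ m := by have := Finset.mem_range.1 hi; omega
      have hj' : j ≤ m' := by have := Finset.mem_range.1 hj; omega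
      have h3 := low i hi' j hj'
      have h4 : Real.exp (-a * kc T (q i) (q' j)) ≤
          Real.exp (b * 400) * Real.exp (-b * N) * (Real.exp (-b * (s i - 0)) *
            Real.exp (-b * (s' j - N))) := by
        rw [← Real.exp_add, ← Real.exp_add, ← Real.exp_add]
        apply Real.exp_le_exp.2
        have : b * (s i + s' j - 400) ≤ b * (18 * kc T (q i) (q' j)) :=
          mul_le_mul_of_nonneg_left h3 hb0.le
        have e2 : b * (18 * kc T (q i) (q' j)) = a * kc T (q i) (q' j) := by rw [hb]; ring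
        linarith
      have h5 : 0 ≤ wt T (q i) * wt T (q' j) := (mul_pos (wt_pos T _) (wt_pos T _)).le
      refine (mul_le_mul_of_nonneg_left h4 h5).trans (le_of_eq ?_)
      ring
    refine (Finset.sum_le_sum fun i hi => Finset.sum_le_sum fun j hj => hterm i hi j hj).trans ?_
    have e3 : ∑ i ∈ range (m + 1), ∑ j ∈ range (m' + 1), Real.exp (b * 400) * Real.exp (-b * N) *
          ((wt T (q i) * Real.exp (-b * (s i - 0))) * (wt T (q' j) * Real.exp (-b * (s' j - N)))) =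
        Real.exp (b * 400) * Real.exp (-b * N) *
          ((∑ i ∈ range (m + 1), wt T (q i) * Real.exp (-b * (s i - 0))) *
            ∑ j ∈ range (m' + 1), wt T (q' j) * Real.exp (-b * (s' j - N))) := by
      rw [Finset.sum_mul_sum, Finset.mul_sum]
      refine Finset.sum_congr rfl fun i _ => ?_
      rw [Finset.mul_sum]
    rw [e3]
    have hs1 := qsum b hb0
    have hs2 := qsum' b hb0
    have hp1 : 0 ≤ ∑ i ∈ range (m + 1), wt T (q i) * Real.exp (-b * (s i - 0)) :=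
      Finset.sum_nonneg fun i _ => mul_nonneg (wt_pos T _).le (Real.exp_pos _).le
    have hp2 : 0 ≤ ∑ j ∈ range (m' + 1), wt T (q' j) * Real.exp (-b * (s' j - N)) :=
      Finset.sum_nonneg fun i _ => mul_nonneg (wt_pos T _).le (Real.exp_pos _).le
    have hmul : (∑ i ∈ range (m + 1), wt T (q i) * Real.exp (-b * (s i - 0))) *
        (∑ j ∈ range (m' + 1), wt T (q' j) * Real.exp (-b * (s' j - N))) ≤ S * S :=
      mul_le_mul hs1 hs2 hp2 hS0
    have hexp : Real.exp (-b * N) ≤ Real.exp (-c * N) := by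
      apply Real.exp_le_exp.2
      have : c * N ≤ b * N := mul_le_mul_of_nonneg_right (min_le_left _ _) hN0
      linarith
    calc _ ≤ Real.exp (b * 400) * Real.exp (-b * N) * (S * S) :=
          mul_le_mul_of_nonneg_left hmul (by positivity)
      _ = (Real.exp (b * 400) * S ^ 2) * Real.exp (-b * N) := by ring
      _ ≤ (Real.exp (b * 400) * S ^ 2) * Real.exp (-c * N) :=
          mul_le_mul_of_nonneg_left hexp (by positivity)
      _ ≤ _ := mul_le_mul_of_nonneg_right (le_max_left _ _) (Real.exp_pos _).le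
  · intro i hi j hj
    have h3 := low i hi j hj
    have h4 := (qs i hi).2.1
    have h5 := (qs' j hj).2.1
    have h6 : c * N ≤ 1 / 18 * N := mul_le_mul_of_nonneg_right (min_le_right _ _) hN0
    have h7 := le_max_right (Real.exp (b * 400) * S ^ 2) (400 / 18)
    show c * N - _ ≤ _
    linarith

/-- **RAYS** -/
theorem rays (φ : Temp → ℂ → ℂ) (hφ : ∀ T, IsRM T (φ T)) :
    CovPath.RAYS (fun T z z' => hyp (φ T (cc z)) (φ T (cc z'))) := by
  intro a ha
  obtain ⟨c, C, hc, h⟩ := rays_phi a ha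
  exact ⟨c, C, hc, fun T z hz z' hz' => h T (φ T) (hφ T) z hz z' hz'⟩

end Vale.Agent.P155.H550
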